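import Vale.Agent.P324.Defs
import Vale.Agent.P324.Main

namespace Vale.Agent.Results.P324.PolyTime

open Vale.Agent.P324 Vale.Agent.Lib.StackLang

/-- Three-machine scheduling of unit jobs with precedence constraints is solvable in polynomial
time: the decision problem, and the computation of an optimal schedule. -/
theorem result :
    (∃ M : Turing.TM2ComputableInPolyTime (fun I : Dag × ℕ => encList (I.2 :: I.1.code))
        (fun b : ℕ => encList [b]) (fun I => I.1.answer I.2),
      ∀ k : M.tm.K, Finite (M.tm.Γ k)) ∧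
    ∃ (M : Turing.TM2ComputableAux Bool Bool) (p : Polynomial ℕ),
      (∀ k : M.tm.K, Finite (M.tm.Γ k)) ∧
      ∀ G : Dag, ∃ (T : ℕ) (τ : Fin G.n → ℕ), G.IsSchedule T τ ∧
        (∀ T' τ', G.IsSchedule T' τ' → T ≤ T') ∧
        Nonempty (Turing.TM2OutputsInTime M.tm
          ((encList G.code).map M.inputAlphabet.invFun)
          (some ((encList (T :: List.ofFn τ)).map M.outputAlphabet.invFun))
          (p.eval (encList G.code).length)) := by
  have hB : PolyB Bd := (((PolyB.id.lin 3 1).pow 10).add PolyB.id).add (PolyB.const 1)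
  have h1 : PolyB (fun L => Bd L * (3 * Bd L + 11)) := hB.mul (hB.lin 3 11)
  constructor
  · obtain ⟨tm, hfin, p, hp⟩ := exists_machine_poly mainD mainD K.inp K.out _ Bd
      (h1.add (hB.lin 15 124)) hB
    refine ⟨⟨tm, p, fun I => Classical.choice ?_⟩, hfin⟩
    obtain ⟨a1, a2⟩ := Bd_spec I.1 (i := I.2 :: I.1.code) (by simp)
    obtain ⟨o, rfl, h⟩ := hp (I.2 :: I.1.code) (fun o => o = [I.1.answer I.2])
      (wp_mainD I.1 I.2 a1 (by simp) a2)
    exact h
  · obtain ⟨tm, hfin, p, hp⟩ := exists_machine_poly mainS mainS K.inp K.out _ Bd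
      ((hB.mul ((hB.mul (hB.lin 3 15)).add (PolyB.const 11))).add (h1.add (hB.lin 15 127))) hB
    refine ⟨tm, p, hfin, fun G => ?_⟩
    obtain ⟨a1, a2⟩ := Bd_spec G (i := G.code) le_rfl
    obtain ⟨o, ⟨T, τ, b1, b2, rfl⟩, h⟩ := hp G.code (fun o => ∃ T τ, G.IsSchedule T τ ∧
      (∀ T' τ', G.IsSchedule T' τ' → T ≤ T') ∧ o = T :: List.ofFn τ)
      (wp_mainS G a1 (by simp) a2)
    exact ⟨T, τ, b1, b2, h⟩

end Vale.Agent.Results.P324.PolyTime
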